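import Vale.Agent.P154.Neg.Grid.Runs.E0.PoiBound
import Vale.Agent.P154.Neg.Grid.Runs.E1.PoiBound
import Vale.Agent.P154.Neg.Grid.Runs.E2.PoiBound
import Vale.Agent.P154.Neg.Grid.Runs.E3.PoiBound
import Vale.Agent.P154.Neg.Grid.Runs.E4.PoiBound
import Vale.Agent.P154.Neg.Grid.Runs.E5.PoiBound
import Vale.Agent.P154.Neg.Grid.Runs.E6.PoiBound
import Vale.Agent.P154.Neg.Grid.Runs.E0.RegBound
import Vale.Agent.P154.Neg.Band.Wired

/-!
# P154: the runs, and both halves of the question
-/

namespace Vale.Agent.P154.Neg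

open Filter Topology Grid.Runs

/-- All runs stay below the threshold of the band at `-1/2`. -/
theorem runsBelow : RunsBelow (9 / 1000) runBoxes := by
  refine ⟨E0.Reg.avT_le, fun b hb => ?_⟩
  simp only [runBoxes, List.mem_cons, List.not_mem_nil, or_false] at hb
  rcases hb with rfl | rfl | rfl | rfl | rfl | rfl | rfl
  · exact E0.Poi.avP_le
  · exact E1.Poi.avP_le
  · exact E2.Poi.avP_le
  · exact E3.Poi.avP_le
  · exact E4.Poi.avP_le
  · exact E5.Poi.avP_le
  · exact E6.Poi.avP_le

end Vale.Agent.P154.Neg
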