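import Vale.Agent.P154.Neg.Grid.Run

/-!
# P154: the grid of the runs, 156 atoms (generated data)
-/

namespace Vale.Agent.P154.Neg.Grid.Runs

/-- The packed grid. -/
def packed : ℕ :=
  37079639239089451989491134097221475307703391703504992104099504277912389278998267116943231365617076325895893376110635727196569721760081512690600870567378217735495904380479948697001775439383408396951236324552060167110037562420894577092562077947950212649956420031259485119364014120556081844169393637853072544212435537854756794632438204625372457690113515959822372222206608188526247503761239981695998553278906107749754148834488493989125135333084113457238172487791168125932496459565528149816776543704398611969366002892589220075753912076051684299139682667265057355093100317245890627321189464145202854276266367583397509423706686936228076088478030891681966739083098300776630338472943619651525369499485099020526640809097852186139509292238331719824247319316711081721646120189786421546315126412141243012023741532855464262938982452936812670791809406362288477284305844776456066364056410517442192351606823368902881301231095377265591305897759294983837868124158114094299993054450221578530950366988950340726434754251769910360096817461521371429412173364872038406253630641836692957752039140816379450095772059608108798974252733580260909891708213632752575307382779347099533447387615674750267589313202693569696000136343713360279227724650143330017545580788266649288240164426620657683989736303835830845629493204527845827357480259765750801936827825128952918305736313049490399706618411126785034282818448106637115607289913505708523310653409086213493236177822010128375376158966170328021077112524455255747947245598947234755767462999251648743173755929544478286496863387354549935617017470232715185044216320544630736810021220361424304188733007130963319604380966591418946478080882683922286350977832661891548007184962514891821421229370619918708983467906551491620248876412588624653923914913505303111619914027450433914798900613017656885080034246865093267526900497839452671216128425564004019043820363295059748654529293263784192556764643074222618434913582510778166588607503651987598546417545573513268710293355750468999986551195879191743385639696386997168927554100844836917340029657241811048174834775482193452018115567036327628111069511171709615931188508375691918344169708994702798763214570560485914511532423108248897228966091257613342314146780690842774682520866283844334324013646416470016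

/-- Parameters of a run with edge `-p / q`. -/
def mkPar (p q : ℕ) : Par :=
  ⟨24576, 155, 8, 60, 28, 25, p, q, 1, gridAt packed⟩

end Vale.Agent.P154.Neg.Grid.Runs
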